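import Vale.Agent.P224.PO.LawO
import Vale.Agent.P224.PO.LawNumO
import Vale.Agent.P224.PO.Cst

/-!
The numerical law of the certificate in dimension 17.
-/

namespace Vale.Agent.P224.PO.C17

open Vale.Agent.P224 Vale.Agent.P224.UE Vale.Agent.P224.POS Vale.Agent.P224.PO

/-- the ratio of the least Clifford volume in dimension 17 -/
lemma clifford_le : leastClifford 17 ≤ 1435177 / 1000000 * sphereVol 17 :=
  odd_le (k := 8) (by norm_num) (by norm_num) (by norm_num)

/-- The numerical law in dimension 17. -/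
theorem law_neg {Θ u r H : ℝ} (h1 : 6 / 5 ≤ Θ) (h2 : Θ ≤ 142082523 / 100000000) (hu : 0 ≤ u)
    (hT : Θ ^ 2 * u ≤ 1) (hr1 : u ^ 2 ≤ r) (hr2 : r ≤ u)
    (hH : H = -(114989 / 17179869184) + (90403 / 12884901888) * u + (-(61411 / 51539607552)) * r) :
    Θ * (1 + (-(19256884797 / 17179869184)) * u + (2978033961 / 17179869184) * r + (1238192043 / 8589934592) * u ^ 2) + KH 17 * H < 0 := by
  have hb := div_pi_bounds (N := 4294967296 / 6435) (by norm_num)
  have hK : KH 17 = (4294967296 / 6435) / Real.pi := by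
    have h0 := KHn_17
    have := Real.pi_pos
    rw [h0]
    try field_simp
  rw [← hK] at hb
  rw [hH]
  exact law_two (Tm := 142082523 / 100000000) hb.1 hb.2 (by norm_num) (by norm_num) (by norm_num) (by norm_num)
    (by norm_num) (by norm_num) (by norm_num)
    (fun T hT1 hT2 => quintic_neg (by norm_num) (by norm_num) (by norm_num) (by norm_num)
      (by norm_num) (by norm_num) (by norm_num) (le_of_eq rfl) (le_of_eq rfl) (le_of_eq rfl)
      (le_of_eq rfl) (le_of_eq rfl) (le_of_eq rfl) hT1 hT2)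
    (fun T hT1 hT2 => quintic_neg (by norm_num) (by norm_num) (by norm_num) (by norm_num)
      (by norm_num) (by norm_num) (by norm_num) (le_of_eq rfl) (le_of_eq rfl) (le_of_eq rfl)
      (le_of_eq rfl) (le_of_eq rfl) (le_of_eq rfl) hT1 hT2)
    (fun T hT1 hT2 => quintic_neg (by norm_num) (by norm_num) (by norm_num) (by norm_num)
      (by norm_num) (by norm_num) (by norm_num) (le_of_eq rfl) (le_of_eq rfl) (le_of_eq rfl)
      (le_of_eq rfl) (le_of_eq rfl) (le_of_eq rfl) hT1 hT2)
    (fun T hT1 hT2 => quintic_neg (by norm_num) (by norm_num) (by norm_num) (by norm_num)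
      (by norm_num) (by norm_num) (by norm_num) (le_of_eq rfl) (le_of_eq rfl) (le_of_eq rfl)
      (le_of_eq rfl) (le_of_eq rfl) (le_of_eq rfl) hT1 hT2)
    h1 h2 hu hT hr1 hr2

end Vale.Agent.P224.PO.C17
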